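import Vale.Agent.P235.K5.Wagner

/-!
# P235-K5, Wagner's theorem, row (W3): the centre lemma (helper510)

`T` is connected and carries three labels.  If `T` has no bipartition of type 2 and no tripartition
of type 3, it has a centre: a vertex `b` such that each connected subset of `T - b` has at most one
label.

Proof.  Take a connected `X ⊆ T` with at least two labels, with `T \ X` empty or connected, and
minimal.  Let `b ∈ X`, adjacent to `Y = T \ X` if `Y` is not empty.  Connected subsets of `X - b`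
have at most one label (else their component could replace `X`), and so has `Y`.  If `b` is not a
centre, the component `Z ⊇ Y` of `T - b` has two labels, and `Y`, `X` split into a tripartition.
-/

set_option autoImplicit false

namespace Vale.Agent.P235.K5.H510

open SimpleGraph Vale.Agent.P235.K5.W

section sets

variable {V : Type} {G : SimpleGraph V}

theorem cn_union {A B : Set V} (hA : Cn G A) (hB : Cn G B) (h : Ad G A B) : Cn G (A ∪ B) := by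
  obtain ⟨a, ha, b, hb, hab⟩ := h
  have h0 : (G.induce (A ∪ B)).Adj ⟨a, Or.inl ha⟩ ⟨b, Or.inr hb⟩ := hab
  have h1 : ∀ v (hv : v ∈ A ∪ B), (G.induce (A ∪ B)).Reachable ⟨a, Or.inl ha⟩ ⟨v, hv⟩ := by
    rintro v (hv | hv)
    · exact (hA.preconnected ⟨a, ha⟩ ⟨v, hv⟩).map
        (SimpleGraph.induceHomOfLE G (Set.subset_union_left : A ⊆ A ∪ B)).toHom
    · exact h0.reachable.trans ((hB.preconnected ⟨b, hb⟩ ⟨v, hv⟩).map
        (SimpleGraph.induceHomOfLE G (Set.subset_union_right : B ⊆ A ∪ B)).toHom)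
  have : Nonempty (A ∪ B : Set V) := ⟨⟨a, Or.inl ha⟩⟩
  exact ⟨fun u v => (h1 u.1 u.2).symm.trans (h1 v.1 v.2)⟩

theorem cn_single (v : V) : Cn G {v} := by
  have : Nonempty ({v} : Set V) := ⟨⟨v, rfl⟩⟩
  refine ⟨fun x y => ?_⟩
  have hxy : x = y := Subtype.ext (x.2.trans y.2.symm)
  rw [hxy]

theorem cn_ne {X : Set V} (hX : Cn G X) : X.Nonempty := by
  obtain ⟨⟨x, hx⟩⟩ := hX.nonempty
  exact ⟨x, hx⟩

theorem ad_symm {X Y : Set V} (h : Ad G X Y) : Ad G Y X := by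
  obtain ⟨x, hx, y, hy, hxy⟩ := h
  exact ⟨y, hy, x, hx, hxy.symm⟩

/-- a connected set has an edge from a part to its complement -/
theorem edge_out {X U : Set V} (hX : Cn G X) (hUX : U ⊆ X) (hU : U.Nonempty)
    (hne : ∃ y ∈ X, y ∉ U) : ∃ x ∈ U, ∃ y ∈ X, y ∉ U ∧ G.Adj x y := by
  by_contra hcon
  obtain ⟨u, hu⟩ := hU
  obtain ⟨y, hy, hyU⟩ := hne
  obtain ⟨w⟩ := hX.preconnected ⟨u, hUX hu⟩ ⟨y, hy⟩
  have key : ∀ (p q : X) (_ : (G.induce X).Walk p q), p.1 ∈ U → q.1 ∈ U := by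
    intro p q w
    induction w with
    | nil => exact id
    | @cons a b c hadj _ ih =>
      intro hp
      apply ih
      by_contra hq
      exact hcon ⟨a.1, hp, b.1, b.2, hq, hadj⟩
  exact hyU (key _ _ w hu)

/-- a connected subset of `S` lies in a component of `S` -/
theorem max_conn [Finite V] {S C0 : Set V} (h0 : Cn G C0) (hS : C0 ⊆ S) :
    ∃ C, C0 ⊆ C ∧ C ⊆ S ∧ Cn G C ∧ ∀ x ∈ C, ∀ y ∈ S, G.Adj x y → y ∈ C := by
  obtain ⟨C, hC, hmax⟩ := Set.Finite.exists_maximal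
    (s := {C : Set V | C0 ⊆ C ∧ C ⊆ S ∧ Cn G C}) (Set.toFinite _) ⟨C0, subset_rfl, hS, h0⟩
  refine ⟨C, hC.1, hC.2.1, hC.2.2, fun x hx y hy hxy => ?_⟩
  have h1 : Cn G (C ∪ {y}) := cn_union hC.2.2 (cn_single y) ⟨x, hx, y, rfl, hxy⟩
  exact hmax (y := C ∪ {y}) ⟨hC.1.trans Set.subset_union_left,
    Set.union_subset hC.2.1 (Set.singleton_subset_iff.2 hy), h1⟩ Set.subset_union_left (Or.inr rfl)

/-- a connected subset of `S` meeting a set closed in `S` is contained in it -/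
theorem sub_of_meet {S Z Y : Set V} (hZ : ∀ x ∈ Z, ∀ y ∈ S, G.Adj x y → y ∈ Z) (hY : Cn G Y)
    (hYS : Y ⊆ S) {a : V} (haY : a ∈ Y) (haZ : a ∈ Z) : Y ⊆ Z := by
  intro y hy
  by_contra hyZ
  obtain ⟨p, hp, q, hq, hqU, hpq⟩ := edge_out (U := Y ∩ Z) hY Set.inter_subset_left
    ⟨a, haY, haZ⟩ ⟨y, hy, fun h => hyZ h.2⟩
  exact hqU ⟨hq, hZ p hp.2 q (hYS hq) hpq⟩

/-- the rest of a connected set, without components of `X - b`, is connected -/
theorem rest [Finite V] {X C : Set V} {b : V} (hX : Cn G X) (hb : b ∈ X) (hbC : b ∉ C)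
    (hC : ∀ x ∈ C, ∀ y ∈ X \ {b}, G.Adj x y → y ∈ C) : Cn G (X \ C) := by
  obtain ⟨M, hM0, hMS, hM, hMc⟩ := max_conn (G := G) (S := X \ C) (cn_single b)
    (Set.singleton_subset_iff.2 ⟨hb, hbC⟩)
  have hbM : b ∈ M := hM0 rfl
  have hMX : M = X \ C := by
    refine Set.Subset.antisymm hMS fun u hu => ?_
    by_contra huM
    obtain ⟨p, hp, q, hq, hqU, hpq⟩ := edge_out (U := (X \ C) \ M) hX
      (fun z hz => hz.1.1) ⟨u, hu, huM⟩ ⟨b, hb, fun h => h.2 hbM⟩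
    have hpb : p ≠ b := fun h => hp.2 (h ▸ hbM)
    by_cases hqM : q ∈ M
    · exact hp.2 (hMc q hqM p hp.1 hpq.symm)
    · by_cases hqC : q ∈ C
      · exact hp.1.2 (hC q hqC p ⟨hp.1.1, hpb⟩ hpq.symm)
      · exact hqU ⟨⟨hq, hqC⟩, hqM⟩
  rw [← hMX]
  exact hM

/-- a component of `X - b` is adjacent to `b` -/
theorem ad_b {X C : Set V} {b : V} (hX : Cn G X) (hb : b ∈ X) (hCX : C ⊆ X) (hne : C.Nonempty)
    (hbC : b ∉ C) (hC : ∀ x ∈ C, ∀ y ∈ X \ {b}, G.Adj x y → y ∈ C) : ∃ x ∈ C, G.Adj x b := by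
  obtain ⟨p, hp, q, hq, hqU, hpq⟩ := edge_out hX hCX hne ⟨b, hb, hbC⟩
  by_cases hqb : q = b
  · exact ⟨p, hp, hqb ▸ hpq⟩
  · exact absurd (hC p hp q ⟨hq, hqb⟩ hpq) hqU

end sets

/-- at least two labels -/
def Two {V : Type} (N : Fin 3 → Set V) (X : Set V) : Prop :=
  ∃ i j, i ≠ j ∧ (X ∩ N i).Nonempty ∧ (X ∩ N j).Nonempty

theorem Two.mono {V : Type} {N : Fin 3 → Set V} {X Y : Set V} (h : Two N X) (hXY : X ⊆ Y) :
    Two N Y := by
  obtain ⟨i, j, hij, hi, hj⟩ := h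
  exact ⟨i, j, hij, hi.mono (Set.inter_subset_inter_left _ hXY),
    hj.mono (Set.inter_subset_inter_left _ hXY)⟩

theorem bool_aux : ∀ p q : Fin 3 → Bool, (∀ i, p i = true ∨ q i = true) →
    (∃ i j, i ≠ j ∧ p i = true ∧ p j = true) → (∃ i j, i ≠ j ∧ q i = true ∧ q j = true) →
    ∃ j k l, j ≠ k ∧ k ≠ l ∧ j ≠ l ∧ p j = true ∧ p k = true ∧ q k = true ∧ q l = true := by
  decide

theorem prop_aux (p q : Fin 3 → Prop) (h : ∀ i, p i ∨ q i) (hp : ∃ i j, i ≠ j ∧ p i ∧ p j)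
    (hq : ∃ i j, i ≠ j ∧ q i ∧ q j) :
    ∃ j k l, j ≠ k ∧ k ≠ l ∧ j ≠ l ∧ p j ∧ p k ∧ q k ∧ q l := by
  classical
  have h1 := bool_aux (fun i => decide (p i)) (fun i => decide (q i))
  simp only [decide_eq_true_eq] at h1
  exact h1 h hp hq

theorem third : ∀ k l : Fin 3, k ≠ l → ∃ m, m ≠ k ∧ m ≠ l ∧ ∀ i, i = k ∨ i = l ∨ i = m := by
  decide

/-- the tripartition with labels in the right order -/
theorem mkTri {V : Type} {G : SimpleGraph V} {T : Set V} {N : Fin 3 → Set V} {k l m : Fin 3}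
    (hkl : k ≠ l) (hmk : m ≠ k) (hml : m ≠ l) (hall : ∀ i, i = k ∨ i = l ∨ i = m)
    {A B C : Set V} (hun : ∀ x, x ∈ T ↔ x ∈ A ∨ x ∈ B ∨ x ∈ C) (hAB : Disjoint A B)
    (hAC : Disjoint A C) (hBC : Disjoint B C) (hA : Cn G A) (hB : Cn G B) (hC : Cn G C)
    (aAB : Ad G A B) (aAC : Ad G A C) (aBC : Ad G B C) (nA : (A ∩ N k).Nonempty)
    (nB : (B ∩ N l).Nonempty) (nC : (C ∩ N m).Nonempty) :
    ∃ X : Fin 3 → Set V, Tri G T X ∧ ∀ i, (X i ∩ N i).Nonempty := by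
  classical
  let X : Fin 3 → Set V := fun i => if i = k then A else if i = l then B else C
  have hk : X k = A := if_pos rfl
  have hl : X l = B := (if_neg (Ne.symm hkl)).trans (if_pos rfl)
  have hm : X m = C := (if_neg hmk).trans (if_neg hml)
  refine ⟨X, ⟨fun x => ?_, fun i j hij => ?_, fun i => ?_, fun i j hij => ?_⟩, fun i => ?_⟩
  · rw [hun]
    constructor
    · rintro (h | h | h)
      · exact ⟨k, hk ▸ h⟩
      · exact ⟨l, hl ▸ h⟩
      · exact ⟨m, hm ▸ h⟩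
    · rintro ⟨i, hi⟩
      rcases hall i with rfl | rfl | rfl
      · exact Or.inl (hk ▸ hi)
      · exact Or.inr (Or.inl (hl ▸ hi))
      · exact Or.inr (Or.inr (hm ▸ hi))
  · rcases hall i with rfl | rfl | rfl <;> rcases hall j with rfl | rfl | rfl
    · exact absurd rfl hij
    · rw [hk, hl]; exact hAB
    · rw [hk, hm]; exact hAC
    · rw [hk, hl]; exact hAB.symm
    · exact absurd rfl hij
    · rw [hl, hm]; exact hBC
    · rw [hk, hm]; exact hAC.symm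
    · rw [hl, hm]; exact hBC.symm
    · exact absurd rfl hij
  · rcases hall i with rfl | rfl | rfl
    · rw [hk]; exact hA
    · rw [hl]; exact hB
    · rw [hm]; exact hC
  · rcases hall i with rfl | rfl | rfl <;> rcases hall j with rfl | rfl | rfl
    · exact absurd rfl hij
    · rw [hk, hl]; exact aAB
    · rw [hk, hm]; exact aAC
    · rw [hk, hl]; exact ad_symm aAB
    · exact absurd rfl hij
    · rw [hl, hm]; exact aBC
    · rw [hk, hm]; exact ad_symm aAC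
    · rw [hl, hm]; exact ad_symm aBC
    · exact absurd rfl hij
  · rcases hall i with rfl | rfl | rfl
    · rw [hk]; exact nA
    · rw [hl]; exact nB
    · rw [hm]; exact nC

/-- (W3) -/
theorem centre : CentreStmt := by
  classical
  intro V _ G T N hT hN
  by_contra hcon
  rw [not_or, not_or] at hcon
  obtain ⟨h2, h3, hc⟩ := hcon
  -- a split has a side with at most one label
  have hsplit : ∀ X Y : Set V, Split G T X Y → Two N X → ¬ Two N Y := by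
    intro X Y hXY hX hY
    obtain ⟨j, k, l, hjk, hkl, hjl, hj, hk, hk', hl⟩ := prop_aux (fun i => (X ∩ N i).Nonempty)
      (fun i => (Y ∩ N i).Nonempty) (fun i => by
        obtain ⟨v, hv, hvi⟩ := hN i
        rw [← hXY.un] at hv
        rcases hv with hv | hv
        · exact Or.inl ⟨v, hv, hvi⟩
        · exact Or.inr ⟨v, hv, hvi⟩) hX hY
    exact h2 ⟨X, Y, j, k, l, hXY, hjk, hkl, hjl, hj, hk, hk', hl⟩
  -- the minimal set `X`
  have hT2 : Two N T := ⟨0, 1, by decide, hN 0, hN 1⟩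
  obtain ⟨X, hX, hmin⟩ := Set.Finite.exists_minimal
    (s := {X : Set V | X ⊆ T ∧ Cn G X ∧ Two N X ∧ (T \ X = ∅ ∨ Cn G (T \ X))}) (Set.toFinite _)
    ⟨T, subset_rfl, hT, hT2, Or.inl (Set.sdiff_self)⟩
  obtain ⟨hXT, hXc, hX2, hY⟩ := hX
  -- the vertex `b`
  obtain ⟨b, hb, hbY⟩ : ∃ b ∈ X, T \ X = ∅ ∨ (Cn G (T \ X) ∧ ∃ y ∈ T \ X, G.Adj b y) := by
    rcases hY with hY | hY
    · obtain ⟨b, hb⟩ := cn_ne hXc
      exact ⟨b, hb, Or.inl hY⟩
    · obtain ⟨y, hy⟩ := cn_ne hY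
      obtain ⟨p, hp, q, hq, hqX, hpq⟩ := edge_out hT hXT (cn_ne hXc) ⟨y, hy.1, hy.2⟩
      exact ⟨p, hp, Or.inr ⟨hY, q, ⟨hq, hqX⟩, hpq⟩⟩
  -- connected subsets of `X - b` have at most one label
  have hone : ∀ C0 : Set V, C0 ⊆ X \ {b} → Cn G C0 → ¬ Two N C0 := by
    intro C0 hC0 hC0c hC02
    obtain ⟨C, hC0C, hCX, hCc, hCcl⟩ := max_conn hC0c hC0
    have hbC : b ∉ C := fun h => (hCX h).2 rfl
    have hrest : Cn G (X \ C) := rest hXc hb hbC hCcl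
    have hCX' : C ⊆ X := fun x hx => (hCX hx).1
    have hTC : T \ C = (X \ C) ∪ (T \ X) := by
      ext x
      constructor
      · intro hx
        by_cases hxX : x ∈ X
        · exact Or.inl ⟨hxX, hx.2⟩
        · exact Or.inr ⟨hx.1, hxX⟩
      · rintro (hx | hx)
        · exact ⟨hXT hx.1, hx.2⟩
        · exact ⟨hx.1, fun h => hx.2 (hCX' h)⟩
    have hTC' : Cn G (T \ C) := by
      rw [hTC]
      rcases hbY with h | ⟨h, y, hy, hby⟩
      · rw [h, Set.union_empty]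
        exact hrest
      · exact cn_union hrest h ⟨b, ⟨hb, hbC⟩, y, hy, hby⟩
    exact hbC (hmin (y := C) ⟨hCX'.trans hXT, hCc, hC02.mono hC0C, Or.inr hTC'⟩ hCX' hb)
  -- `b` is not a centre
  apply hc
  refine ⟨b, hXT hb, fun C0 hC0T hbC0 hC0 i j hij hlab => ?_⟩
  have hC02 : Two N C0 := ⟨i, j, hij, hlab.1, hlab.2⟩
  have hC0b : C0 ⊆ T \ {b} := fun x hx => ⟨hC0T hx, fun h => hbC0 (h ▸ hx)⟩
  rcases hbY with hY0 | ⟨hYc, y0, hy0, hby0⟩
  · refine hone C0 (fun x hx => ⟨?_, (hC0b hx).2⟩) hC0 hC02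
    by_contra hxX
    have : x ∈ T \ X := ⟨hC0T hx, hxX⟩
    rw [hY0] at this
    exact this
  -- the split `(X, T \ X)`
  have hdisXY : Disjoint X (T \ X) := Set.disjoint_sdiff_right
  have hsp : Split G T X (T \ X) :=
    ⟨Set.union_sdiff_cancel hXT, hdisXY, hXc, hYc, ⟨b, hb, y0, hy0, hby0⟩⟩
  have hY2 : ¬ Two N (T \ X) := hsplit X _ hsp hX2
  -- the component `Z`
  obtain ⟨Z, hC0Z, hZT, hZc, hZcl⟩ := max_conn hC0 hC0b
  have hZ2 : Two N Z := hC02.mono hC0Z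
  have hYb : T \ X ⊆ T \ {b} := fun x hx => ⟨hx.1, fun h => hx.2 (by
    have hxb : x = b := h
    rw [hxb]
    exact hb)⟩
  obtain ⟨a, haZ, haY⟩ : ∃ a ∈ Z, a ∈ T \ X := by
    by_contra hno
    refine hone Z (fun x hx => ⟨?_, (hZT hx).2⟩) hZc hZ2
    by_contra hxX
    exact hno ⟨x, hx, (hZT hx).1, hxX⟩
  have hYZ : T \ X ⊆ Z := sub_of_meet hZcl hYc hYb haY haZ
  have hXb : X \ {b} ⊆ T \ {b} := fun x hx => ⟨hXT hx.1, hx.2⟩
  -- the component of `X - b` of a vertex of `Z` is adjacent to `Y`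
  have hcomp : ∀ z ∈ Z, z ∉ T \ X → ∃ C, z ∈ C ∧ C ⊆ X \ {b} ∧ Cn G C ∧
      (∀ x ∈ C, ∀ y ∈ X \ {b}, G.Adj x y → y ∈ C) ∧ Ad G C (T \ X) := by
    intro z hz hzY
    have hzX : z ∈ X \ {b} := by
      refine ⟨?_, (hZT hz).2⟩
      by_contra h
      exact hzY ⟨(hZT hz).1, h⟩
    obtain ⟨C, hzC, hCX, hCc, hCcl⟩ := max_conn (G := G) (cn_single z)
      (Set.singleton_subset_iff.2 hzX)
    have hzC' : z ∈ C := hzC rfl
    have hCZ : C ⊆ Z := sub_of_meet hZcl hCc (hCX.trans hXb) hzC' hz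
    have haC : a ∉ C := fun h => haY.2 (hCX h).1
    obtain ⟨p, hp, q, hq, hqC, hpq⟩ := edge_out hZc hCZ ⟨z, hzC'⟩ ⟨a, haZ, haC⟩
    refine ⟨C, hzC', hCX, hCc, hCcl, p, hp, q, ⟨(hZT hq).1, fun hqX => ?_⟩, hpq⟩
    exact hqC (hCcl p hp q ⟨hqX, (hZT hq).2⟩ hpq)
  apply h3
  by_cases hYl : ∃ l, ((T \ X) ∩ N l).Nonempty
  · -- `Y` has one label
    obtain ⟨l, hl⟩ := hYl
    obtain ⟨k, hkl, z, hzZ, hzk⟩ : ∃ k, k ≠ l ∧ (Z ∩ N k).Nonempty := by
      obtain ⟨i, j, hij, hi, hj⟩ := hZ2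
      by_cases hil : i = l
      · exact ⟨j, fun h => hij (hil.trans h.symm), hj⟩
      · exact ⟨i, hil, hi⟩
    have hzY : z ∉ T \ X := fun h => hY2 ⟨k, l, hkl, ⟨z, h, hzk⟩, hl⟩
    obtain ⟨C, hzC, hCX, hCc, hCcl, hCY⟩ := hcomp z hzZ hzY
    have hbC : b ∉ C := fun h => (hCX h).2 rfl
    have hCX' : C ⊆ X := fun x hx => (hCX hx).1
    obtain ⟨m, hmk, hml, hall⟩ := third k l hkl
    obtain ⟨c, hcC, hcb⟩ := ad_b hXc hb hCX' ⟨z, hzC⟩ hbC hCcl
    refine mkTri (A := C) (B := T \ X) (C := X \ C) hkl hmk hml hall (fun x => ?_)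
      (hdisXY.mono_left hCX') Set.disjoint_sdiff_right (hdisXY.symm.mono_right Set.sdiff_subset)
      hCc hYc (rest hXc hb hbC hCcl) hCY ⟨c, hcC, b, ⟨hb, hbC⟩, hcb⟩
      ⟨y0, hy0, b, ⟨hb, hbC⟩, hby0.symm⟩ ⟨z, hzC, hzk⟩ hl ?_
    · constructor
      · intro hx
        by_cases hxX : x ∈ X
        · by_cases hxC : x ∈ C
          · exact Or.inl hxC
          · exact Or.inr (Or.inr ⟨hxX, hxC⟩)
        · exact Or.inr (Or.inl ⟨hx, hxX⟩)
      · rintro (hx | hx | hx)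
        · exact hXT (hCX' hx)
        · exact hx.1
        · exact hXT hx.1
    · obtain ⟨v, hvT, hvm⟩ := hN m
      have hvX : v ∈ X := by
        by_contra hvX
        exact hY2 ⟨m, l, hml, ⟨v, ⟨hvT, hvX⟩, hvm⟩, hl⟩
      refine ⟨v, ⟨hvX, fun hvC => ?_⟩, hvm⟩
      exact hone C hCX hCc ⟨m, k, hmk, ⟨v, hvC, hvm⟩, ⟨z, hzC, hzk⟩⟩
  · -- `Y` has no label
    have hYn : ∀ l v, v ∈ N l → v ∉ T \ X := fun l v hv hvY => hYl ⟨l, v, hvY, hv⟩
    obtain ⟨k, l, hkl, ⟨z, hzZ, hzk⟩, ⟨w, hwZ, hwl⟩⟩ := hZ2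
    obtain ⟨C, hzC, hCX, hCc, hCcl, hCY⟩ := hcomp z hzZ (hYn k z hzk)
    obtain ⟨D, hwD, hDX, hDc, hDcl, hDY⟩ := hcomp w hwZ (hYn l w hwl)
    have hbC : b ∉ C := fun h => (hCX h).2 rfl
    have hbD : b ∉ D := fun h => (hDX h).2 rfl
    have hCX' : C ⊆ X := fun x hx => (hCX hx).1
    have hDX' : D ⊆ X := fun x hx => (hDX hx).1
    have hCD : Disjoint C D := by
      rw [Set.disjoint_left]
      intro x hxC hxD
      have hDC : D ⊆ C := sub_of_meet hCcl hDc hDX hxD hxC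
      exact hone C hCX hCc ⟨k, l, hkl, ⟨z, hzC, hzk⟩, ⟨w, hDC hwD, hwl⟩⟩
    obtain ⟨m, hmk, hml, hall⟩ := third k l hkl
    obtain ⟨d, hdD, hdb⟩ := ad_b hXc hb hDX' ⟨w, hwD⟩ hbD hDcl
    have hbU : b ∉ C ∪ D := fun h => h.elim hbC hbD
    have hR : Cn G (X \ (C ∪ D)) := rest hXc hb hbU (by
      rintro x (hx | hx) y hy hxy
      · exact Or.inl (hCcl x hx y hy hxy)
      · exact Or.inr (hDcl x hx y hy hxy))
    have hCYd : Disjoint ((T \ X) ∪ C) D := by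
      rw [Set.disjoint_left]
      rintro x (hx | hx) hxD
      · exact hx.2 (hDX' hxD)
      · exact Set.disjoint_left.1 hCD hx hxD
    have hCYr : Disjoint ((T \ X) ∪ C) (X \ (C ∪ D)) := by
      rw [Set.disjoint_left]
      rintro x (hx | hx) hxR
      · exact hx.2 hxR.1
      · exact hxR.2 (Or.inl hx)
    have hDr : Disjoint D (X \ (C ∪ D)) := by
      rw [Set.disjoint_left]
      intro x hx hxR
      exact hxR.2 (Or.inr hx)
    have hYC : Cn G ((T \ X) ∪ C) := cn_union hYc hCc (ad_symm hCY)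
    have aYD : Ad G ((T \ X) ∪ C) D := by
      obtain ⟨p, hp, q, hq, hpq⟩ := hDY
      exact ⟨q, Or.inl hq, p, hp, hpq.symm⟩
    refine mkTri (A := (T \ X) ∪ C) (B := D) (C := X \ (C ∪ D)) hkl hmk hml hall (fun x => ?_)
      hCYd hCYr hDr hYC hDc hR aYD ⟨y0, Or.inl hy0, b, ⟨hb, hbU⟩, hby0.symm⟩
      ⟨d, hdD, b, ⟨hb, hbU⟩, hdb⟩ ⟨z, Or.inr hzC, hzk⟩ ⟨w, hwD, hwl⟩ ?_
    · constructor
      · intro hx
        by_cases hxX : x ∈ X
        · by_cases hxC : x ∈ C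
          · exact Or.inl (Or.inr hxC)
          · by_cases hxD : x ∈ D
            · exact Or.inr (Or.inl hxD)
            · exact Or.inr (Or.inr ⟨hxX, fun h => h.elim hxC hxD⟩)
        · exact Or.inl (Or.inl ⟨hx, hxX⟩)
      · rintro ((hx | hx) | hx | hx)
        · exact hx.1
        · exact hXT (hCX' hx)
        · exact hXT (hDX' hx)
        · exact hXT hx.1
    · obtain ⟨v, hvT, hvm⟩ := hN m
      have hvX : v ∈ X := by
        by_contra hvX
        exact hYn m v hvm ⟨hvT, hvX⟩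
      refine ⟨v, ⟨hvX, ?_⟩, hvm⟩
      rintro (hvC | hvD)
      · exact hone C hCX hCc ⟨m, k, hmk, ⟨v, hvC, hvm⟩, ⟨z, hzC, hzk⟩⟩
      · exact hone D hDX hDc ⟨m, l, hml, ⟨v, hvD, hvm⟩, ⟨w, hwD, hwl⟩⟩

end Vale.Agent.P235.K5.H510
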